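import Vale.Agent.P214.COORD.Area
import Vale.Agent.P214.WIN.Props

/-!
# P214, block COORD: bridge to the frames of section WIN
-/

open Set Filter Topology MeasureTheory Metric
open scoped RealInnerProductSpace ContDiff

set_option linter.all false

namespace Vale.Agent.P214.COORD

open FV FM

variable {E : Type*} [NormedAddCommGroup E] [InnerProductSpace ℝ E] [FiniteDimensional ℝ E]
variable {m n : ℕ} {T : Submodule ℝ E}

/-- a frame of section WIN as a frame of this section -/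
noncomputable def ofWin (F : WIN.Frame m n T) : Frame T m n where
  i := T.subtypeₗᵢ.comp F.bT.repr.symm.toLinearIsometry
  f a := ((F.bN a : Tᗮ) : E)
  i_mem x := (F.bT.repr.symm x).2
  i_surj y hy := ⟨F.bT.repr ⟨y, hy⟩, by simp⟩
  f_orth := F.bN.orthonormal.comp_linearIsometry Tᗮ.subtypeₗᵢ
  f_mem a := (F.bN a).2
  f_sum v hv := by
    have h1 := F.bN.sum_repr' ⟨v, hv⟩
    have h2 := congrArg (fun u : Tᗮ => (u : E)) h1
    simpa using h2

lemma ofWin_i (F : WIN.Frame m n T) (x : REF.E m) : (ofWin F).i x = F.up x := rfl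

lemma ofWin_f (F : WIN.Frame m n T) (a : Fin n) : (ofWin F).f a = ((F.bN a : Tᗮ) : E) := rfl

lemma ofWin_c (F : WIN.Frame m n T) (y : E) : (ofWin F).c y = F.xc y := by
  have h1 : (ofWin F).i (F.xc y) = T.starProjection y := by
    rw [ofWin_i]
    unfold WIN.Frame.up WIN.Frame.xc
    rw [LinearIsometryEquiv.symm_apply_apply]
    rfl
  rw [← (ofWin F).c_star y, ← h1, Frame.c_i]

lemma lift_eq (F : WIN.Frame m n T) (u : Fin n → REF.E m → ℝ) :
    F.lift u = (ofWin F).frC 0 1 u := by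
  funext y
  unfold WIN.Frame.lift Frame.frC
  refine Finset.sum_congr rfl fun a _ => ?_
  rw [ofWin_c, sub_zero, inv_one, one_smul, one_mul]
  rfl

lemma toC_lift (F : WIN.Frame m n T) (u : Fin n → REF.E m → ℝ) :
    (ofWin F).toC 0 1 (F.lift u) = u := by
  rw [lift_eq, (ofWin F).toC_frC 0 one_ne_zero]

lemma bf_lift (F : WIN.Frame m n T) {u : Fin n → REF.E m → ℝ} (hu : ∀ a, ContDiff ℝ 2 (u a)) :
    BF T (F.lift u) := by
  rw [lift_eq]; exact (ofWin F).bf_frC hu 0 1

lemma contDiff_lift (F : WIN.Frame m n T) {k : WithTop ℕ∞} {u : Fin n → REF.E m → ℝ}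
    (hu : ∀ a, ContDiff ℝ k (u a)) : ContDiff ℝ k (F.lift u) := by
  rw [lift_eq]; exact (ofWin F).contDiff_frC hu 0 1

/-- derivatives of the lift -/
theorem norm_iteratedFDeriv_lift (F : WIN.Frame m n T) {j : ℕ} {u : Fin n → REF.E m → ℝ}
    (hu : ∀ a, ContDiff ℝ j (u a)) (y : E) :
    ‖iteratedFDeriv ℝ j (F.lift u) y‖ ≤ ∑ a, ‖iteratedFDeriv ℝ j (u a) (F.xc y)‖ := by
  have h1 := (ofWin F).norm_iteratedFDeriv_frC hu 0 one_pos y
  rw [← lift_eq, one_pow, one_mul, one_mul, sub_zero, inv_one, one_smul, ofWin_c] at h1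
  exact h1

/-- derivatives of the components -/
theorem norm_iteratedFDeriv_comp (F : WIN.Frame m n T) {j : ℕ} {u : Fin n → REF.E m → ℝ}
    (hu : ∀ a, ContDiff ℝ j (u a)) (a : Fin n) (x : REF.E m) :
    ‖iteratedFDeriv ℝ j (u a) x‖ ≤ ‖iteratedFDeriv ℝ j (F.lift u) (F.up x)‖ := by
  have h1 := (ofWin F).norm_iteratedFDeriv_toC (contDiff_lift F hu) 0 one_pos a x
  rw [toC_lift, one_pow, one_mul, one_mul, zero_add, one_smul, ofWin_i] at h1
  exact h1

/-- the lift is a reference in the sense of block KMS -/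
theorem kms_ref_lift (F : WIN.Frame m n T) {u : Fin n → REF.E m → ℝ}
    (hu : ∀ a, ContDiff ℝ ∞ (u a)) : KMS.Ref T (F.lift u) := by
  refine ⟨contDiff_lift F hu, fun y => ?_, fun y => ?_⟩
  · rw [lift_eq, (ofWin F).frC_base]
  · rw [lift_eq]
    exact (Submodule.starProjection_apply_eq_zero_iff T).1 ((ofWin F).star_frC 0 1 u y)

/-- the lift is a reference in the sense of block FM -/
theorem fm_ref_lift (F : WIN.Frame m n T) {u : Fin n → REF.E m → ℝ}
    (hu : ∀ a, ContDiff ℝ ∞ (u a)) {ε κ : ℝ} (hκ : 0 ≤ κ)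
    (h1 : ∀ x, ∑ a, ‖iteratedFDeriv ℝ 1 (u a) x‖ ≤ ε)
    (h2 : ∀ k, 2 ≤ k → k ≤ 6 → ∀ x, ∑ a, ‖iteratedFDeriv ℝ k (u a) x‖ ≤ κ ^ (k - 1)) :
    FM.Ref T (F.lift u) ε κ := by
  have hu' : ∀ j : ℕ, ∀ a, ContDiff ℝ j (u a) := fun j a =>
    (hu a).of_le (WithTop.coe_le_coe.2 le_top)
  refine ⟨contDiff_lift F hu, fun y => ?_, fun y => ?_, hκ, fun y => ?_, fun k hk hk' y => ?_⟩
  · rw [lift_eq, (ofWin F).frC_base]
  · rw [lift_eq, (ofWin F).star_frC]
  · rw [← norm_iteratedFDeriv_one]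
    exact (norm_iteratedFDeriv_lift F (hu' 1) y).trans (h1 _)
  · exact (norm_iteratedFDeriv_lift F (hu' k) y).trans (h2 k hk hk' _)

lemma gpl_eq (w : E → E) (y : E) : KMS.gpl T (fderiv ℝ w y) = planeOf T w y := rfl

/-- **the minimal surface operator of the lift** -/
theorem inner_lap_lift (F : WIN.Frame m n T) {u : Fin n → REF.E m → ℝ}
    (hu : ∀ a, ContDiff ℝ 2 (u a)) (a : Fin n) (y : E) :
    ⟪((F.bN a : Tᗮ) : E), lap (F.lift u) (PS T (F.lift u) y) y⟫ =
      (REF.gm u (F.xc y)).det⁻¹ * REF.Mop u a (F.xc y) := by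
  have hb := bf_lift F hu
  have h1 := (ofWin F).inner_lap_PS hb 0 one_ne_zero a (F.xc y)
  rw [toC_lift, one_mul, zero_add, one_smul, ofWin_i, ofWin_f] at h1
  have h2 : F.up (F.xc y) = T.starProjection y := by
    rw [← ofWin_i, ← ofWin_c, Frame.i_c]
  rw [h2] at h1
  have h3 : PS T (F.lift u) (T.starProjection y) = PS T (F.lift u) y := by
    unfold PS planeOf; simp only [hb.fderiv_base]
  have h4 : lap (F.lift u) (PS T (F.lift u) y) (T.starProjection y) =
      lap (F.lift u) (PS T (F.lift u) y) y := by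
    unfold lap
    refine Finset.sum_congr rfl fun k _ => ?_
    show D2 (F.lift u) (T.starProjection y) _ _ = D2 (F.lift u) y _ _
    rw [hb.D2_base]
  rw [h3, h4] at h1
  exact h1

/-- the lift is minimal at `y` iff `Mop` vanishes at the base coordinates -/
theorem lap_lift_eq_zero_iff (F : WIN.Frame m n T) {u : Fin n → REF.E m → ℝ}
    (hu : ∀ a, ContDiff ℝ 2 (u a)) (y : E) :
    lap (F.lift u) (PS T (F.lift u) y) y = 0 ↔ ∀ a, REF.Mop u a (F.xc y) = 0 := by
  have hb := bf_lift F hu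
  have hdet : (REF.gm u (F.xc y)).det ≠ 0 := (REF.gm_posDef _ _).det_pos.ne'
  constructor
  · intro h a
    have h1 := inner_lap_lift F hu a y
    rw [h, inner_zero_right] at h1
    exact (mul_eq_zero.1 h1.symm).resolve_left (inv_ne_zero hdet)
  · intro h
    have h1 : T.starProjection (lap (F.lift u) (PS T (F.lift u) y) y) = 0 := by
      unfold lap
      rw [map_sum]
      exact Finset.sum_eq_zero fun k _ => hb.star_D2 _ _ _
    rw [← (ofWin F).sum_f h1]
    refine Finset.sum_eq_zero fun a _ => ?_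
    rw [ofWin_f, inner_lap_lift F hu a y, h a, mul_zero, zero_smul]

/-- minimality over a ball -/
theorem minimalOver_lift_iff (F : WIN.Frame m n T) {u : Fin n → REF.E m → ℝ}
    (hu : ∀ a, ContDiff ℝ 2 (u a)) {r : ℝ} :
    MinimalOver T (F.lift u) (ball 0 r) ↔ ∀ a x, ‖x‖ < r → REF.Mop u a x = 0 := by
  have h1 := (ofWin F).minimalOver_iff (bf_lift F hu) (zero_mem T) one_pos r
  rw [one_mul, toC_lift] at h1
  exact h1

/-- the area element of the lift -/
theorem areaEl_lift (F : WIN.Frame m n T) {u : Fin n → REF.E m → ℝ}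
    (hu : ∀ a, ContDiff ℝ 2 (u a)) (x : REF.E m) :
    areaEl (F.lift u) (F.up x) = √(REF.gm u x).det := by
  have h1 := (ofWin F).areaEl_eq (bf_lift F hu) 0 one_ne_zero x
  rw [toC_lift, zero_add, one_smul, ofWin_i] at h1
  exact h1

/-- integrals over `T` in the coordinates of a frame of section WIN -/
theorem setIntegral_up [MeasurableSpace E] [BorelSpace E] (F : WIN.Frame m n T) {W : Type*}
    [NormedAddCommGroup W] [NormedSpace ℝ W] (φ : E → W) :
    ∫ y in (T : Set E), φ y ∂μH[m] = (hc m : ℝ) • ∫ x, φ (F.up x) := by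
  have h1 := (ofWin F).setIntegral_T (zero_mem T) one_pos φ
  rw [one_pow, mul_one] at h1
  rw [h1]
  congr 1
  refine integral_congr_ae (Filter.Eventually.of_forall fun x => ?_)
  simp only [zero_add, one_smul]
  rfl

end Vale.Agent.P214.COORD
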