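import Vale.Agent.P214.COORD.Min
import Mathlib.LinearAlgebra.Matrix.SchurComplement
import Mathlib.MeasureTheory.Measure.Hausdorff
import Mathlib.MeasureTheory.Measure.Haar.Unique

/-!
# P214, block COORD: area element and the Hausdorff measure of `T` in coordinates
-/

open Set Filter Topology MeasureTheory Metric
open scoped RealInnerProductSpace ContDiff ENNReal NNReal

set_option linter.all false

namespace Vale.Agent.P214.COORD

open FV FM

variable {E : Type*} [NormedAddCommGroup E] [InnerProductSpace ℝ E] [FiniteDimensional ℝ E]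

/-- Weinstein–Aronszajn identity for linear maps -/
lemma det_one_add_comp {m : ℕ} (L : REF.E m →ₗ[ℝ] E) (M : E →ₗ[ℝ] REF.E m) :
    LinearMap.det (LinearMap.id + L ∘ₗ M) = LinearMap.det (LinearMap.id + M ∘ₗ L) := by
  classical
  set b := (stdOrthonormalBasis ℝ E).toBasis
  set b' := (EuclideanSpace.basisFun (Fin m) ℝ).toBasis
  rw [← LinearMap.det_toMatrix b, ← LinearMap.det_toMatrix b', map_add, map_add,
    LinearMap.toMatrix_id, LinearMap.toMatrix_id, LinearMap.toMatrix_comp b b' b,
    LinearMap.toMatrix_comp b' b b', Matrix.det_one_add_mul_comm]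

namespace Frame

variable {T : Submodule ℝ E} {m n : ℕ} (F : Frame T m n)

/-- **the area element in coordinates** -/
theorem areaEl_eq {w : E → E} (hw : BF T w) (z : E) {R : ℝ} (hR : R ≠ 0) (x : REF.E m) :
    areaEl w (z + R • F.i x) = √(REF.gm (F.toC z R w) x).det := by
  classical
  set y := z + R • F.i x with hy
  set A := fderiv ℝ w y with hA
  unfold areaEl
  congr 1
  have hstar : ∀ v, T.starProjection (adj A v) = adj A v := by
    intro v
    refine ext_inner_right ℝ fun u => ?_
    rw [inner_star, inner_adj_left, inner_adj_left, hA, hw.fderiv_star]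
  set L : REF.E m →ₗ[ℝ] E := F.i.toLinearMap with hL
  set M : E →ₗ[ℝ] REF.E m := ((F.c.comp ((adj A).comp A) : E →L[ℝ] REF.E m) : E →ₗ[ℝ] REF.E m)
    with hM
  have h1 : ((ContinuousLinearMap.id ℝ E + (adj A).comp A : E →L[ℝ] E) : E →ₗ[ℝ] E) =
      LinearMap.id + L ∘ₗ M := by
    ext v
    show v + adj A (A v) = v + F.i (F.c (adj A (A v)))
    rw [F.i_c, hstar]
  rw [h1, det_one_add_comp]
  set b' := (EuclideanSpace.basisFun (Fin m) ℝ).toBasis with hb'
  rw [← LinearMap.det_toMatrix b']
  congr 1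
  ext i j
  rw [LinearMap.toMatrix_apply, F.gm_toC hw z hR]
  have h2 : ∀ j, b' j = REF.bs j := fun j => by simp [hb', REF.bs]
  have h3 : ∀ (v : REF.E m) i, b'.repr v i = ⟪REF.bs i, v⟫ := fun v i => by
    simp [hb', REF.bs, EuclideanSpace.inner_single_left]
  rw [h3, h2]
  show ⟪REF.bs i, REF.bs j + F.c (adj A (A (F.i (REF.bs j))))⟫ = _
  unfold Eb
  rw [← hy, ← hA, inner_add_right, inner_add_left, inner_add_right, inner_add_right,
    F.i.inner_map_map]
  have h4 : ∀ u v, ⟪F.i u, A v⟫ = 0 := fun u v =>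
    Submodule.inner_right_of_mem_orthogonal (F.i_mem u)
      ((Submodule.starProjection_apply_eq_zero_iff T).1 (hw.star_fderiv _ _))
  rw [h4, add_zero, real_inner_comm (F.i (REF.bs j)) (A (F.i (REF.bs i))), h4, zero_add,
    real_inner_comm (F.c _), F.inner_c, inner_adj_left, real_inner_comm (A (F.i (REF.bs i)))]

end Frame

/-- the normalisation of the Hausdorff measure -/
noncomputable def hc (m : ℕ) : ℝ≥0 :=
  haveI : Measure.IsAddHaarMeasure (μH[m] : Measure (REF.E m)) := by
    have := isAddHaarMeasure_hausdorffMeasure (E := REF.E m)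
    rwa [finrank_euclideanSpace_fin] at this
  Measure.addHaarScalarFactor (μH[m] : Measure (REF.E m)) volume

lemma haar_hausdorff (m : ℕ) : Measure.IsAddHaarMeasure (μH[m] : Measure (REF.E m)) := by
  have := isAddHaarMeasure_hausdorffMeasure (E := REF.E m)
  rwa [finrank_euclideanSpace_fin] at this

lemma hausdorff_eq (m : ℕ) : (μH[m] : Measure (REF.E m)) = hc m • (volume : Measure (REF.E m)) := by
  haveI := haar_hausdorff m
  exact Measure.isAddLeftInvariant_eq_smul _ _

lemma hc_pos (m : ℕ) : 0 < hc m := by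
  haveI := haar_hausdorff m
  exact Measure.addHaarScalarFactor_pos_of_isAddHaarMeasure _ _

namespace Frame

variable {T : Submodule ℝ E} {m n : ℕ} (F : Frame T m n) [MeasurableSpace E] [BorelSpace E]

lemma range_i : Set.range F.i = (T : Set E) := by
  ext y
  constructor
  · rintro ⟨x, rfl⟩; exact F.i_mem x
  · intro hy; exact F.i_surj y hy

lemma measurableEmbedding_i : MeasurableEmbedding F.i :=
  F.i.isometry.isClosedEmbedding.measurableEmbedding

/-- the Hausdorff measure of `T` is the image of Lebesgue measure -/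
theorem restrict_T : (μH[m] : Measure E).restrict T = hc m • Measure.map F.i volume := by
  have h1 := F.i.isometry.map_hausdorffMeasure (d := (m : ℝ)) (Or.inl (Nat.cast_nonneg m))
  rw [F.range_i] at h1
  rw [← h1, hausdorff_eq, Measure.map_smul]

/-- integrals over `T` in coordinates -/
theorem setIntegral_T {W : Type*} [NormedAddCommGroup W] [NormedSpace ℝ W] {z : E} (hz : z ∈ T)
    {R : ℝ} (hR : 0 < R) (φ : E → W) :
    ∫ y in (T : Set E), φ y ∂μH[m] = ((hc m : ℝ) * R ^ m) • ∫ x, φ (z + R • F.i x) := by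
  rw [F.restrict_T, integral_smul_nnreal_measure, F.measurableEmbedding_i.integral_map]
  obtain ⟨x₀, rfl⟩ := F.i_surj z hz
  have h1 : ∀ x, F.i x₀ + R • F.i x = F.i (x₀ + R • x) := fun x => by
    rw [map_add, map_smul]
  simp only [h1]
  have h2 := Measure.integral_comp_smul (volume : Measure (REF.E m))
    (fun x => φ (F.i (x₀ + x))) R
  rw [finrank_euclideanSpace_fin] at h2
  rw [h2, integral_add_left_eq_self (μ := (volume : Measure (REF.E m))) (fun x => φ (F.i x)) x₀]
  rw [smul_smul, abs_of_pos (by positivity : (0:ℝ) < (R ^ m)⁻¹), mul_assoc,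
    mul_inv_cancel₀ (by positivity), mul_one]
  rfl

/-- integrability over `T` in coordinates -/
theorem integrableOn_T_iff {W : Type*} [NormedAddCommGroup W] {z : E} (hz : z ∈ T)
    {R : ℝ} (hR : 0 < R) (φ : E → W) :
    IntegrableOn φ (T : Set E) μH[m] ↔ Integrable (fun x => φ (z + R • F.i x)) := by
  obtain ⟨x₀, rfl⟩ := F.i_surj z hz
  have h1 : ∀ x, F.i x₀ + R • F.i x = F.i (x₀ + R • x) := fun x => by
    rw [map_add, map_smul]
  have h3 : IntegrableOn φ (T : Set E) μH[m] ↔ Integrable (fun x => φ (F.i x)) := by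
    unfold IntegrableOn
    rw [F.restrict_T]
    have h4 : hc m • Measure.map F.i (volume : Measure (REF.E m)) =
        (hc m : ℝ≥0∞) • Measure.map F.i (volume : Measure (REF.E m)) := rfl
    rw [h4, integrable_smul_measure (by exact_mod_cast (hc_pos m).ne') ENNReal.coe_ne_top,
      F.measurableEmbedding_i.integrable_map_iff]
    rfl
  rw [h3]
  simp only [h1]
  have h5 := integrable_comp_smul_iff (volume : Measure (REF.E m))
    (fun x => φ (F.i (x₀ + x))) hR.ne'
  have h6 := (measurePreserving_add_left (volume : Measure (REF.E m)) x₀).integrable_comp_emb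
    (MeasurableEquiv.addLeft x₀).measurableEmbedding (g := fun x => φ (F.i x))
  rw [h5]
  exact h6.symm

/-- measures of subsets of `T` in coordinates -/
theorem measure_T {z : E} (hz : z ∈ T) {R : ℝ} (hR : 0 < R) {s : Set E} (hs : s ⊆ T) :
    μH[m] s = hc m * ENNReal.ofReal (R ^ m) * volume ((fun x => z + R • F.i x) ⁻¹' s) := by
  obtain ⟨x₀, rfl⟩ := F.i_surj z hz
  have h1 : (fun x => F.i x₀ + R • F.i x) ⁻¹' s = (R • ·) ⁻¹' ((x₀ + ·) ⁻¹' (F.i ⁻¹' s)) := by
    ext x
    simp only [Set.mem_preimage, map_add, map_smul]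
  rw [h1, Measure.addHaar_preimage_smul _ hR.ne', measure_preimage_add, finrank_euclideanSpace_fin]
  have h2 : F.i '' (F.i ⁻¹' s) = s := by
    rw [Set.image_preimage_eq_inter_range, F.range_i, Set.inter_eq_left.2 hs]
  have h3 : μH[m] s = μH[m] (F.i ⁻¹' s) := by
    conv_lhs => rw [← h2]
    exact F.i.isometry.hausdorffMeasure_image (Or.inl (Nat.cast_nonneg m)) _
  rw [h3, hausdorff_eq, Measure.smul_apply, abs_of_pos (by positivity : (0:ℝ) < (R ^ m)⁻¹)]
  have h4 : ENNReal.ofReal (R ^ m) * ENNReal.ofReal ((R ^ m)⁻¹) = 1 := by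
    rw [← ENNReal.ofReal_mul (by positivity), mul_inv_cancel₀ (by positivity), ENNReal.ofReal_one]
  calc hc m • volume (F.i ⁻¹' s) = (hc m : ℝ≥0∞) * volume (F.i ⁻¹' s) := rfl
    _ = (hc m : ℝ≥0∞) * ((ENNReal.ofReal (R ^ m) * ENNReal.ofReal ((R ^ m)⁻¹)) *
        volume (F.i ⁻¹' s)) := by rw [h4, one_mul]
    _ = _ := by ring

end Frame

end Vale.Agent.P214.COORD
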