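import Vale.Agent.P214.REF.Minimal
import Vale.Agent.P214.FM.Cyl

/-!
# P214, block COORD: orthonormal coordinates

`Frame T m n`: an isometry `i` of `ℝ^m` onto `T` and an orthonormal basis `f` of `Tᗮ`.
`c` is the adjoint of `i` (base coordinates), `toC F z R w a x = ⟪f a, w (z + R • i x)⟫ / R` are the
rescaled coordinates of a base dependent `w : E → E` with values in `Tᗮ`, `frC` is the inverse.
-/

open Set Filter Topology MeasureTheory Metric
open scoped RealInnerProductSpace ContDiff

set_option linter.all false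

namespace Vale.Agent.P214.COORD

open FV FM

variable {E : Type*} [NormedAddCommGroup E] [InnerProductSpace ℝ E] [FiniteDimensional ℝ E]

/-- base dependent functions with values in `Tᗮ` -/
structure BF (T : Submodule ℝ E) (w : E → E) : Prop where
  smooth : ContDiff ℝ 2 w
  base : ∀ y, w (T.starProjection y) = w y
  perp : ∀ y, T.starProjection (w y) = 0

lemma _root_.Vale.Agent.P214.FM.Ref.bf {T : Submodule ℝ E} {w : E → E} {ε κ : ℝ}
    (hw : Ref T w ε κ) : BF T w :=
  ⟨hw.smooth.of_le (m := 2) (WithTop.coe_le_coe.2 le_top), hw.base, hw.perp⟩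

namespace BF

variable {T : Submodule ℝ E} {w : E → E}

lemma diff (hw : BF T w) : Differentiable ℝ w := hw.smooth.differentiable (by simp)

lemma smooth1 (hw : BF T w) : ContDiff ℝ 1 (fderiv ℝ w) :=
  hw.smooth.fderiv_right (by norm_num)

lemma diff1 (hw : BF T w) : Differentiable ℝ (fderiv ℝ w) :=
  hw.smooth1.differentiable (by simp)

lemma fderiv_base (hw : BF T w) (y : E) : fderiv ℝ w (T.starProjection y) = fderiv ℝ w y := by
  have h1 : ∀ a : E, T.starProjection a = 0 → (fun z => w (z + a)) = w := by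
    intro a ha
    funext z
    rw [← hw.base (z + a), map_add, ha, add_zero, hw.base]
  have h2 : T.starProjection (T.starProjection y - y) = 0 := by
    rw [map_sub, star_self, sub_self]
  have h3 := h1 _ h2
  conv_rhs => rw [← h3]
  rw [fderiv_comp_add_right]
  simp

lemma D2_base (hw : BF T w) (y : E) : D2 w (T.starProjection y) = D2 w y := by
  have h1 : ∀ a : E, T.starProjection a = 0 → (fun z => fderiv ℝ w (z + a)) = fderiv ℝ w := by
    intro a ha
    funext z
    rw [← hw.fderiv_base (z + a), map_add, ha, add_zero, hw.fderiv_base]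
  have h2 : T.starProjection (T.starProjection y - y) = 0 := by
    rw [map_sub, star_self, sub_self]
  have h3 := h1 _ h2
  unfold D2
  conv_rhs => rw [← h3]
  rw [fderiv_comp_add_right]
  simp

lemma fderiv_star (hw : BF T w) (y v : E) :
    fderiv ℝ w y (T.starProjection v) = fderiv ℝ w y v := by
  have h1 : w = fun z => w (T.starProjection z) := by funext z; rw [hw.base]
  have h2 : HasFDerivAt (fun z => w (T.starProjection z))
      ((fderiv ℝ w (T.starProjection y)).comp T.starProjection) y :=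
    (hw.diff _).hasFDerivAt.comp y T.starProjection.hasFDerivAt
  rw [← h1, hw.fderiv_base] at h2
  have h3 := h2.fderiv
  conv_rhs => rw [h3]
  rfl

lemma star_fderiv (hw : BF T w) (y v : E) : T.starProjection (fderiv ℝ w y v) = 0 := by
  have h2 : HasFDerivAt (fun z => T.starProjection (w z))
      (T.starProjection.comp (fderiv ℝ w y)) y :=
    T.starProjection.hasFDerivAt.comp y (hw.diff y).hasFDerivAt
  have h3 : (fun z => T.starProjection (w z)) = fun _ => 0 := by funext z; rw [hw.perp]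
  rw [h3] at h2
  have h4 := h2.fderiv
  rw [fderiv_fun_const] at h4
  have := congrArg (fun L : E →L[ℝ] E => L v) h4
  simpa using this.symm

lemma star_D2 (hw : BF T w) (y v z : E) : T.starProjection (D2 w y v z) = 0 := by
  have h2 : HasFDerivAt (fun y => T.starProjection (fderiv ℝ w y z))
      (T.starProjection.comp ((ContinuousLinearMap.apply ℝ E z).comp (D2 w y))) y :=
    T.starProjection.hasFDerivAt.comp y
      ((ContinuousLinearMap.apply ℝ E z).hasFDerivAt.comp y (hw.diff1 y).hasFDerivAt)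
  have h3 : (fun y => T.starProjection (fderiv ℝ w y z)) = fun _ => 0 := by
    funext y; rw [hw.star_fderiv]
  rw [h3] at h2
  have h4 := h2.fderiv
  rw [fderiv_fun_const] at h4
  have := congrArg (fun L : E →L[ℝ] E => L v) h4
  simpa using this.symm

lemma D2_symm (hw : BF T w) (y v z : E) : D2 w y v z = D2 w y z v := by
  have h1 : IsSymmSndFDerivAt ℝ w y := by
    refine hw.smooth.contDiffAt.isSymmSndFDerivAt ?_
    simp
  exact h1 v z

lemma D2_star_right (hw : BF T w) (y v z : E) :
    D2 w y v (T.starProjection z) = D2 w y v z := by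
  have h2 : HasFDerivAt (fun y => fderiv ℝ w y (T.starProjection z))
      ((ContinuousLinearMap.apply ℝ E (T.starProjection z)).comp (D2 w y)) y :=
    ((ContinuousLinearMap.apply ℝ E (T.starProjection z)).hasFDerivAt.comp y
      (hw.diff1 y).hasFDerivAt)
  have h2' : HasFDerivAt (fun y => fderiv ℝ w y z)
      ((ContinuousLinearMap.apply ℝ E z).comp (D2 w y)) y :=
    ((ContinuousLinearMap.apply ℝ E z).hasFDerivAt.comp y
      (hw.diff1 y).hasFDerivAt)
  have h3 : (fun y => fderiv ℝ w y (T.starProjection z)) = fun y => fderiv ℝ w y z := by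
    funext y; rw [hw.fderiv_star]
  rw [h3] at h2
  have h4 := h2.unique h2'
  exact congrArg (fun L : E →L[ℝ] E => L v) h4

lemma D2_star_left (hw : BF T w) (y v z : E) :
    D2 w y (T.starProjection v) z = D2 w y v z := by
  rw [hw.D2_symm, hw.D2_star_right, hw.D2_symm]

end BF

/-- orthonormal coordinates of `T` and `Tᗮ` -/
structure Frame (T : Submodule ℝ E) (m n : ℕ) where
  i : REF.E m →ₗᵢ[ℝ] E
  f : Fin n → E
  i_mem : ∀ x, i x ∈ T
  i_surj : ∀ y ∈ T, ∃ x, i x = y
  f_orth : Orthonormal ℝ f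
  f_mem : ∀ a, f a ∈ Tᗮ
  f_sum : ∀ v ∈ Tᗮ, ∑ a, ⟪f a, v⟫ • f a = v

theorem exists_frame {T : Submodule ℝ E} {m n : ℕ} (hm : Module.finrank ℝ T = m)
    (hn : Module.finrank ℝ Tᗮ = n) : Nonempty (Frame T m n) := by
  let b : OrthonormalBasis (Fin m) ℝ T := (stdOrthonormalBasis ℝ T).reindex (finCongr hm)
  let g : OrthonormalBasis (Fin n) ℝ Tᗮ := (stdOrthonormalBasis ℝ Tᗮ).reindex (finCongr hn)
  refine ⟨⟨T.subtypeₗᵢ.comp b.repr.symm.toLinearIsometry, fun a => (g a : E), fun x => ?_,
    fun y hy => ?_, ?_, fun a => (g a).2, fun v hv => ?_⟩⟩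
  · exact (b.repr.symm x).2
  · refine ⟨b.repr ⟨y, hy⟩, ?_⟩
    simp
  · exact g.orthonormal.comp_linearIsometry Tᗮ.subtypeₗᵢ
  · have h1 := g.sum_repr' ⟨v, hv⟩
    have h2 := congrArg (fun u : Tᗮ => (u : E)) h1
    simpa using h2

namespace Frame

variable {T : Submodule ℝ E} {m n : ℕ} (F : Frame T m n)

/-- base coordinates -/
noncomputable def c : E →L[ℝ] REF.E m := ContinuousLinearMap.adjoint F.i.toContinuousLinearMap

lemma inner_c (y : E) (x : REF.E m) : ⟪F.c y, x⟫ = ⟪y, F.i x⟫ := by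
  unfold c
  rw [ContinuousLinearMap.adjoint_inner_left]
  rfl

@[simp] lemma c_i (x : REF.E m) : F.c (F.i x) = x := by
  refine ext_inner_right ℝ fun z => ?_
  rw [F.inner_c, F.i.inner_map_map]

lemma star_i (x : REF.E m) : T.starProjection (F.i x) = F.i x :=
  Submodule.starProjection_eq_self_iff.2 (F.i_mem x)

@[simp] lemma c_star (y : E) : F.c (T.starProjection y) = F.c y := by
  refine ext_inner_right ℝ fun z => ?_
  rw [F.inner_c, F.inner_c, inner_star, F.star_i]

@[simp] lemma i_c (y : E) : F.i (F.c y) = T.starProjection y := by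
  obtain ⟨x, hx⟩ := F.i_surj _ (T.starProjection_apply_mem y)
  rw [← F.c_star y, ← hx, F.c_i]

lemma norm_c (y : E) : ‖F.c y‖ = ‖T.starProjection y‖ := by
  rw [← F.i_c, F.i.norm_map]

lemma norm_c_le (y : E) : ‖F.c y‖ ≤ ‖y‖ := by
  rw [F.norm_c]; exact norm_star_le T y

lemma opNorm_c_le : ‖F.c‖ ≤ 1 :=
  ContinuousLinearMap.opNorm_le_bound _ zero_le_one fun y => by
    rw [one_mul]; exact F.norm_c_le y

lemma opNorm_i_le : ‖F.i.toContinuousLinearMap‖ ≤ 1 :=
  ContinuousLinearMap.opNorm_le_bound _ zero_le_one fun x => by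
    rw [one_mul]; exact (F.i.norm_map x).le

lemma star_f (a : Fin n) : T.starProjection (F.f a) = 0 :=
  (Submodule.starProjection_apply_eq_zero_iff T).2 (F.f_mem a)

@[simp] lemma c_f (a : Fin n) : F.c (F.f a) = 0 := by
  rw [← F.c_star, F.star_f, map_zero]

lemma norm_f (a : Fin n) : ‖F.f a‖ = 1 := F.f_orth.1 a

lemma inner_f (a b : Fin n) : ⟪F.f a, F.f b⟫ = if a = b then (1 : ℝ) else 0 :=
  orthonormal_iff_ite.1 F.f_orth a b

lemma inner_f_i (a : Fin n) (x : REF.E m) : ⟪F.f a, F.i x⟫ = 0 :=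
  Submodule.inner_left_of_mem_orthogonal (F.i_mem x) (F.f_mem a)

lemma inner_f_star (a : Fin n) (v : E) : ⟪F.f a, T.starProjection v⟫ = 0 :=
  Submodule.inner_left_of_mem_orthogonal (T.starProjection_apply_mem v) (F.f_mem a)

lemma mem_perp {v : E} (hv : T.starProjection v = 0) : v ∈ Tᗮ :=
  (Submodule.starProjection_apply_eq_zero_iff T).1 hv

lemma sum_f {v : E} (hv : T.starProjection v = 0) : ∑ a, ⟪F.f a, v⟫ • F.f a = v :=
  F.f_sum v (mem_perp hv)

lemma sum_inner_f {u v : E} (hu : T.starProjection u = 0) :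
    ∑ a, ⟪F.f a, u⟫ * ⟪F.f a, v⟫ = ⟪u, v⟫ := by
  conv_rhs => rw [← F.sum_f hu, sum_inner]
  exact Finset.sum_congr rfl fun a _ => by rw [real_inner_smul_left]

/-- orthogonal decomposition in coordinates -/
lemma inner_eq (u v : E) :
    ⟪u, v⟫ = ⟪F.c u, F.c v⟫ + ∑ a, ⟪F.f a, u⟫ * ⟪F.f a, v⟫ := by
  have h1 : T.starProjection (co T u) = 0 := star_co T u
  have h2 := F.sum_inner_f h1 (v := v)
  have h3 : ∀ a, ⟪F.f a, co T u⟫ = ⟪F.f a, u⟫ := fun a => by
    rw [co_apply, inner_sub_right, F.inner_f_star, sub_zero]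
  simp only [h3] at h2
  rw [h2, F.inner_c, F.i_c]
  conv_lhs => rw [← star_add_co T u, inner_add_left]
  congr 1
  rw [inner_star]

/-- rescaled coordinates -/
noncomputable def toC (z : E) (R : ℝ) (w : E → E) (a : Fin n) (x : REF.E m) : ℝ :=
  ⟪F.f a, w (z + R • F.i x)⟫ / R

/-- from coordinates to functions on the ambient space -/
noncomputable def frC (z : E) (R : ℝ) (u : Fin n → REF.E m → ℝ) (y : E) : E :=
  ∑ a, (R * u a (R⁻¹ • F.c (y - z))) • F.f a

/-- the base point of given coordinates -/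
lemma base_pt {z : E} (hz : z ∈ T) {R : ℝ} (hR : R ≠ 0) (y : E) :
    z + R • F.i (R⁻¹ • F.c (y - z)) = T.starProjection y := by
  rw [map_smul, smul_smul, mul_inv_cancel₀ hR, one_smul, F.i_c, map_sub,
    Submodule.starProjection_eq_self_iff.2 hz]
  abel

lemma coord_pt (z : E) {R : ℝ} (hR : R ≠ 0) (x : REF.E m) :
    R⁻¹ • F.c (z + R • F.i x - z) = x := by
  rw [add_sub_cancel_left, map_smul, F.c_i, smul_smul, inv_mul_cancel₀ hR, one_smul]

theorem toC_frC (z : E) {R : ℝ} (hR : R ≠ 0) (u : Fin n → REF.E m → ℝ) :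
    F.toC z R (F.frC z R u) = u := by
  funext a x
  unfold toC frC
  rw [F.coord_pt z hR, inner_sum]
  simp only [real_inner_smul_right, F.inner_f]
  simp
  field_simp

theorem frC_toC {z : E} (hz : z ∈ T) {R : ℝ} (hR : R ≠ 0) {w : E → E}
    (hb : ∀ y, w (T.starProjection y) = w y) (hp : ∀ y, T.starProjection (w y) = 0) :
    F.frC z R (F.toC z R w) = w := by
  funext y
  unfold toC frC
  have h1 : ∀ a, R * (⟪F.f a, w y⟫ / R) = ⟪F.f a, w y⟫ := fun a => by field_simp
  simp only [F.base_pt hz hR, hb, h1]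
  exact F.sum_f (hp y)

lemma frC_base (z : E) (R : ℝ) (u : Fin n → REF.E m → ℝ) (y : E) :
    F.frC z R u (T.starProjection y) = F.frC z R u y := by
  unfold frC
  rw [map_sub, map_sub, F.c_star]

lemma star_frC (z : E) (R : ℝ) (u : Fin n → REF.E m → ℝ) (y : E) :
    T.starProjection (F.frC z R u y) = 0 := by
  unfold frC
  rw [map_sum]
  refine Finset.sum_eq_zero fun a _ => ?_
  rw [map_smul, F.star_f, smul_zero]

lemma contDiff_toC {k : WithTop ℕ∞} {w : E → E} (hw : ContDiff ℝ k w) (z : E) (R : ℝ) (a : Fin n) :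
    ContDiff ℝ k (F.toC z R w a) := by
  unfold toC
  have h1 : ContDiff ℝ k fun x : REF.E m => z + R • F.i x :=
    contDiff_const.add (contDiff_const.smul F.i.contDiff)
  exact (contDiff_const.inner ℝ (hw.comp h1)).div_const R

lemma contDiff_frC {k : WithTop ℕ∞} {u : Fin n → REF.E m → ℝ} (hu : ∀ a, ContDiff ℝ k (u a))
    (z : E) (R : ℝ) : ContDiff ℝ k (F.frC z R u) := by
  unfold frC
  refine ContDiff.sum fun a _ => ?_
  have h0 : ContDiff ℝ k fun y : E => F.c (y - z) :=
    F.c.contDiff.comp (contDiff_id.sub contDiff_const)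
  have h1 : ContDiff ℝ k fun y : E => R⁻¹ • F.c (y - z) := h0.const_smul R⁻¹
  exact (contDiff_const.mul ((hu a).comp h1)).smul contDiff_const

lemma bf_frC {u : Fin n → REF.E m → ℝ} (hu : ∀ a, ContDiff ℝ 2 (u a)) (z : E) (R : ℝ) :
    BF T (F.frC z R u) :=
  ⟨F.contDiff_frC hu z R, F.frC_base z R u, F.star_frC z R u⟩

end Frame

end Vale.Agent.P214.COORD
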