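import Vale.Agent.P214.COORD.Norms

/-!
# P214, block COORD: the minimal surface operator in coordinates

`PS T w y = ∑ g^{ij} E_i ⊗ E_j` and `⟪f a, lap w (PS T w y) y⟫ = (R det g)⁻¹ Mop (toC w) a x`.
-/

open Set Filter Topology MeasureTheory Metric
open scoped RealInnerProductSpace ContDiff

set_option linter.all false

namespace Vale.Agent.P214.COORD

open FV FM

variable {E : Type*} [NormedAddCommGroup E] [InnerProductSpace ℝ E] [FiniteDimensional ℝ E]

namespace Frame

variable {T : Submodule ℝ E} {m n : ℕ} (F : Frame T m n)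

/-- first derivatives of the coordinates -/
lemma fderiv_toC {w : E → E} (hw : Differentiable ℝ w) (z : E) {R : ℝ} (hR : R ≠ 0) (a : Fin n)
    (x v : REF.E m) :
    fderiv ℝ (F.toC z R w a) x v = ⟪F.f a, fderiv ℝ w (z + R • F.i x) (F.i v)⟫ := by
  have h1 : HasFDerivAt (fun x : REF.E m => z + R • F.i x) (R • F.i.toContinuousLinearMap) x :=
    (F.i.toContinuousLinearMap.hasFDerivAt.const_smul R).const_add z
  have h2 := (hw (z + R • F.i x)).hasFDerivAt.comp x h1
  have h3 := ((innerSL ℝ (F.f a)).hasFDerivAt.comp x h2).const_smul R⁻¹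
  have h4 : F.toC z R w a = R⁻¹ • (⇑(innerSL ℝ (F.f a)) ∘ w ∘ fun x => z + R • F.i x) := by
    funext x
    simp [toC, div_eq_inv_mul]
  have h5 := h3
  rw [← h4] at h5
  rw [h5.fderiv]
  simp only [ContinuousLinearMap.smul_apply, ContinuousLinearMap.comp_apply, map_smul, smul_eq_mul,
    innerSL_apply_apply]
  rw [← mul_assoc, inv_mul_cancel₀ hR, one_mul]
  rfl

lemma pd_toC {w : E → E} (hw : Differentiable ℝ w) (z : E) {R : ℝ} (hR : R ≠ 0) (a : Fin n)
    (i : Fin m) (x : REF.E m) :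
    REF.pd i (F.toC z R w a) x = ⟪F.f a, fderiv ℝ w (z + R • F.i x) (F.i (REF.bs i))⟫ :=
  F.fderiv_toC hw z hR a x _

/-- second derivatives of the coordinates -/
lemma pd_pd_toC {w : E → E} (hw : ContDiff ℝ 2 w) (z : E) {R : ℝ} (hR : R ≠ 0) (a : Fin n)
    (i j : Fin m) (x : REF.E m) :
    REF.pd i (REF.pd j (F.toC z R w a)) x =
      R * ⟪F.f a, D2 w (z + R • F.i x) (F.i (REF.bs i)) (F.i (REF.bs j))⟫ := by
  have hd : Differentiable ℝ w := hw.differentiable (by simp)
  have hd1 : Differentiable ℝ (fderiv ℝ w) :=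
    (hw.fderiv_right (m := 1) (by norm_num)).differentiable (by simp)
  have h0 : REF.pd j (F.toC z R w a) =
      fun x => ⟪F.f a, fderiv ℝ w (z + R • F.i x) (F.i (REF.bs j))⟫ :=
    funext fun x => F.pd_toC hd z hR a j x
  rw [h0]
  unfold REF.pd
  have h1 : HasFDerivAt (fun x : REF.E m => z + R • F.i x) (R • F.i.toContinuousLinearMap) x :=
    (F.i.toContinuousLinearMap.hasFDerivAt.const_smul R).const_add z
  have h2 := (hd1 (z + R • F.i x)).hasFDerivAt.comp x h1
  have h2' := (ContinuousLinearMap.apply ℝ E (F.i (REF.bs j))).hasFDerivAt.comp x h2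
  have h3 := (innerSL ℝ (F.f a)).hasFDerivAt.comp x h2'
  have h5 : HasFDerivAt (fun x => ⟪F.f a, fderiv ℝ w (z + R • F.i x) (F.i (REF.bs j))⟫) _ x := h3
  rw [h5.fderiv]
  simp only [ContinuousLinearMap.smul_apply, ContinuousLinearMap.comp_apply, map_smul, smul_eq_mul,
    innerSL_apply_apply]
  rfl

/-- basis of the tangent plane of the graph -/
noncomputable def Eb (w : E → E) (y : E) (i : Fin m) : E :=
  F.i (REF.bs i) + fderiv ℝ w y (F.i (REF.bs i))

/-- an expansion of elements of the plane -/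
lemma sum_bs (x : REF.E m) : ∑ i, x i • (REF.bs i : REF.E m) = x := by
  ext k
  simp [REF.bs, PiLp.smul_apply, Finset.sum_apply, Pi.single_apply]

lemma mem_planeOf {w : E → E} (y v : E) :
    v ∈ planeOf T w y ↔ ∃ x : REF.E m, ∑ i, x i • F.Eb w y i = v := by
  unfold planeOf
  rw [Submodule.mem_map]
  have key : ∀ x : REF.E m, ∑ i, x i • F.Eb w y i = F.i x + fderiv ℝ w y (F.i x) := by
    intro x
    conv_rhs => rw [← sum_bs x]
    simp only [Eb, smul_add, Finset.sum_add_distrib, map_sum, map_smul]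
  constructor
  · rintro ⟨t, ht, rfl⟩
    obtain ⟨x, rfl⟩ := F.i_surj t ht
    exact ⟨x, key x⟩
  · rintro ⟨x, rfl⟩
    exact ⟨F.i x, F.i_mem x, (key x).symm⟩

lemma inner_i_bs (i j : Fin m) : ⟪F.i (REF.bs i), F.i (REF.bs j)⟫ = if i = j then (1:ℝ) else 0 := by
  rw [F.i.inner_map_map]
  unfold REF.bs
  rw [EuclideanSpace.inner_single_left]
  by_cases h : i = j <;> simp [h, eq_comm]

/-- the metric -/
lemma gm_toC {w : E → E} (hw : BF T w) (z : E) {R : ℝ} (hR : R ≠ 0) (x : REF.E m)
    (i j : Fin m) : REF.gm (F.toC z R w) x i j =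
      ⟪F.Eb w (z + R • F.i x) i, F.Eb w (z + R • F.i x) j⟫ := by
  unfold REF.gm Eb
  rw [Matrix.add_apply, Matrix.of_apply, Matrix.one_apply, inner_add_left, inner_add_right,
    inner_add_right, F.inner_i_bs]
  have h1 : ∀ u v, ⟪F.i u, fderiv ℝ w (z + R • F.i x) v⟫ = 0 := fun u v =>
    Submodule.inner_right_of_mem_orthogonal (F.i_mem u)
      ((Submodule.starProjection_apply_eq_zero_iff T).1 (hw.star_fderiv _ _))
  rw [h1, real_inner_comm, h1, ← F.sum_inner_f (hw.star_fderiv _ _)]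
  simp only [F.pd_toC hw.diff z hR]
  ring

/-- **the projection onto the tangent plane in coordinates** -/
theorem PS_eq {w : E → E} (hw : BF T w) (z : E) {R : ℝ} (hR : R ≠ 0) (x : REF.E m) (v : E) :
    PS T w (z + R • F.i x) v = ∑ i, ∑ j, ((REF.gm (F.toC z R w) x)⁻¹ i j *
      ⟪F.Eb w (z + R • F.i x) i, v⟫) • F.Eb w (z + R • F.i x) j := by
  set y := z + R • F.i x with hy
  set G := REF.gm (F.toC z R w) x with hG
  have hGe : ∀ i j, G i j = ⟪F.Eb w y i, F.Eb w y j⟫ := fun i j => F.gm_toC hw z hR x i j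
  have hdet : IsUnit G.det := (REF.gm_posDef _ _).det_pos.ne'.isUnit
  have hinv : G⁻¹ * G = 1 := Matrix.nonsing_inv_mul G hdet
  have hsymm : ∀ i j, G i j = G j i := fun i j => by rw [hGe, hGe, real_inner_comm]
  have hinvs : ∀ i j, G⁻¹ i j = G⁻¹ j i := by
    have h1 : G.transpose = G := by ext i j; exact hsymm j i
    intro i j
    have h2 : (G⁻¹).transpose = G⁻¹ := by rw [Matrix.transpose_nonsing_inv, h1]
    conv_lhs => rw [← h2]
    rfl
  unfold PS
  symm
  refine (Submodule.eq_starProjection_of_mem_of_inner_eq_zero (K := planeOf T w y) ?_ ?_).symm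
  · rw [F.mem_planeOf]
    refine ⟨(WithLp.equiv 2 (Fin m → ℝ)).symm fun j => ∑ i, G⁻¹ i j * ⟪F.Eb w y i, v⟫, ?_⟩
    rw [Finset.sum_comm]
    refine Finset.sum_congr rfl fun j _ => ?_
    rw [← Finset.sum_smul]
    rfl
  · intro u hu
    obtain ⟨t, rfl⟩ := (F.mem_planeOf y u).1 hu
    rw [inner_sum]
    refine Finset.sum_eq_zero fun l _ => ?_
    rw [real_inner_smul_right, inner_sub_left, sum_inner]
    have h3 : ∑ i, ⟪∑ j, (G⁻¹ i j * ⟪F.Eb w y i, v⟫) • F.Eb w y j, F.Eb w y l⟫ =
        ⟪F.Eb w y l, v⟫ := by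
      have h4 : ∀ i, ⟪∑ j, (G⁻¹ i j * ⟪F.Eb w y i, v⟫) • F.Eb w y j, F.Eb w y l⟫ =
          (G⁻¹ * G) i l * ⟪F.Eb w y i, v⟫ := by
        intro i
        rw [sum_inner, Matrix.mul_apply, Finset.sum_mul]
        refine Finset.sum_congr rfl fun j _ => ?_
        rw [real_inner_smul_left, hGe]
        ring
      simp only [h4, hinv, Matrix.one_apply]
      simp
    rw [h3, real_inner_comm, sub_self, mul_zero]

/-- **the minimal surface operator in coordinates** -/
theorem inner_lap_PS {w : E → E} (hw : BF T w) (z : E) {R : ℝ} (hR : R ≠ 0) (a : Fin n)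
    (x : REF.E m) :
    ⟪F.f a, lap w (PS T w (z + R • F.i x)) (z + R • F.i x)⟫ =
      (R * (REF.gm (F.toC z R w) x).det)⁻¹ * REF.Mop (F.toC z R w) a x := by
  set y := z + R • F.i x with hy
  set G := REF.gm (F.toC z R w) x with hG
  set b := stdOrthonormalBasis ℝ E with hb
  have h1 : lap w (PS T w y) y = ∑ i, ∑ j, G⁻¹ i j • D2 w y (F.Eb w y j) (F.Eb w y i) := by
    unfold lap
    have h2 : ∀ k, fderiv ℝ (fderiv ℝ w) y (PS T w y (b k)) (b k) =
        ∑ i, ∑ j, G⁻¹ i j • D2 w y (F.Eb w y j) (⟪F.Eb w y i, b k⟫ • b k) := by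
      intro k
      have h3 : PS T w y (b k) = _ := F.PS_eq hw z hR x (b k)
      rw [h3, ← hy, ← hG]
      show D2 w y _ (b k) = _
      simp only [map_sum, ContinuousLinearMap.sum_apply, map_smul,
        ContinuousLinearMap.smul_apply, smul_smul]
    rw [Finset.sum_congr rfl fun k _ => h2 k, Finset.sum_comm]
    refine Finset.sum_congr rfl fun i _ => ?_
    rw [Finset.sum_comm]
    refine Finset.sum_congr rfl fun j _ => ?_
    rw [← Finset.smul_sum, ← map_sum]
    have h4 : ∑ k, ⟪F.Eb w y i, b k⟫ • b k = F.Eb w y i := by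
      have := b.sum_repr' (F.Eb w y i)
      conv_rhs => rw [← this]
      exact Finset.sum_congr rfl fun k _ => by rw [real_inner_comm]
    rw [h4]
  have h5 : ∀ i j, D2 w y (F.Eb w y j) (F.Eb w y i) = D2 w y (F.i (REF.bs i)) (F.i (REF.bs j)) := by
    intro i j
    rw [← hw.D2_star_left, ← hw.D2_star_right, hw.D2_symm]
    have h6 : ∀ i, T.starProjection (F.Eb w y i) = F.i (REF.bs i) := fun i => by
      unfold Eb
      rw [map_add, hw.star_fderiv, add_zero, F.star_i]
    rw [h6, h6]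
  rw [h1]
  simp only [h5, inner_sum, real_inner_smul_right]
  unfold REF.Mop
  rw [Finset.mul_sum]
  refine Finset.sum_congr rfl fun i _ => ?_
  rw [Finset.mul_sum]
  refine Finset.sum_congr rfl fun j _ => ?_
  rw [F.pd_pd_toC hw.smooth z hR, ← hy, ← hG]
  have hdet : G.det ≠ 0 := (REF.gm_posDef _ _).det_pos.ne'
  rw [Matrix.inv_def, Matrix.smul_apply, Ring.inverse_eq_inv', smul_eq_mul, mul_inv]
  field_simp

/-- the graph is minimal at a point iff `Mop` vanishes there -/
theorem lap_PS_eq_zero_iff {w : E → E} (hw : BF T w) (z : E) {R : ℝ} (hR : R ≠ 0) (x : REF.E m) :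
    lap w (PS T w (z + R • F.i x)) (z + R • F.i x) = 0 ↔ ∀ a, REF.Mop (F.toC z R w) a x = 0 := by
  set y := z + R • F.i x with hy
  have hdet : (REF.gm (F.toC z R w) x).det ≠ 0 := (REF.gm_posDef _ _).det_pos.ne'
  constructor
  · intro h a
    have h1 := F.inner_lap_PS hw z hR a x
    rw [← hy, h, inner_zero_right] at h1
    have h2 : (R * (REF.gm (F.toC z R w) x).det)⁻¹ ≠ 0 := inv_ne_zero (mul_ne_zero hR hdet)
    exact (mul_eq_zero.1 h1.symm).resolve_left h2
  · intro h
    have h1 : T.starProjection (lap w (PS T w y) y) = 0 := by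
      unfold lap
      rw [map_sum]
      exact Finset.sum_eq_zero fun k _ => hw.star_D2 _ _ _
    rw [← F.sum_f h1]
    refine Finset.sum_eq_zero fun a _ => ?_
    rw [F.inner_lap_PS hw z hR a x, h a, mul_zero, zero_smul]

/-- **minimality over a ball in coordinates** -/
theorem minimalOver_iff {w : E → E} (hw : BF T w) {z : E} (hz : z ∈ T) {R : ℝ} (hR : 0 < R)
    (ρ : ℝ) : MinimalOver T w (ball z (R * ρ)) ↔
      ∀ a x, ‖x‖ < ρ → REF.Mop (F.toC z R w) a x = 0 := by
  have hlap : ∀ y, lap w (PS T w (T.starProjection y)) (T.starProjection y) =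
      lap w (PS T w y) y := by
    intro y
    have h1 : PS T w (T.starProjection y) = PS T w y := by
      unfold PS planeOf; simp only [hw.fderiv_base]
    rw [h1]
    unfold lap
    refine Finset.sum_congr rfl fun k _ => ?_
    show D2 w (T.starProjection y) _ _ = D2 w y _ _
    rw [hw.D2_base]
  have hnorm : ∀ x : REF.E m, ‖z + R • F.i x - z‖ = R * ‖x‖ := fun x => by
    rw [add_sub_cancel_left, norm_smul, F.i.norm_map, Real.norm_eq_abs, abs_of_pos hR]
  constructor
  · intro h a x hx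
    have h1 : T.starProjection (z + R • F.i x) = z + R • F.i x := by
      rw [map_add, map_smul, F.star_i, Submodule.starProjection_eq_self_iff.2 hz]
    refine (F.lap_PS_eq_zero_iff hw z hR.ne' x).1 (h _ ?_) a
    rw [h1, mem_ball, dist_eq_norm, hnorm]
    exact mul_lt_mul_of_pos_left hx hR
  · intro h y hy
    rw [← hlap, ← F.base_pt hz hR.ne' y]
    refine (F.lap_PS_eq_zero_iff hw z hR.ne' _).2 fun a => h a _ ?_
    rw [← F.base_pt hz hR.ne' y, mem_ball, dist_eq_norm, hnorm] at hy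
    exact lt_of_mul_lt_mul_left hy hR.le

end Frame

end Vale.Agent.P214.COORD
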