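import Vale.Agent.P214.COORD.Frame

/-!
# P214, block COORD: norms of the iterated derivatives
-/

open Set Filter Topology MeasureTheory Metric
open scoped RealInnerProductSpace ContDiff

set_option linter.all false

namespace Vale.Agent.P214.COORD

open FV FM

variable {E : Type*} [NormedAddCommGroup E] [InnerProductSpace ℝ E] [FiniteDimensional ℝ E]

/-- composition with an affine map -/
lemma norm_iteratedFDeriv_affine {G H W : Type*} [NormedAddCommGroup G] [NormedSpace ℝ G]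
    [NormedAddCommGroup H] [NormedSpace ℝ H] [NormedAddCommGroup W] [NormedSpace ℝ W]
    {f : H → W} {j : ℕ} (hf : ContDiff ℝ j f) (g : G →L[ℝ] H) {r : ℝ}
    (hg : ‖g‖ ≤ r) (v : H) (x : G) :
    ‖iteratedFDeriv ℝ j (fun x => f (v + g x)) x‖ ≤ r ^ j * ‖iteratedFDeriv ℝ j f (v + g x)‖ := by
  have h0 : ContDiff ℝ j fun z => f (v + z) := hf.comp (contDiff_const.add contDiff_id)
  have h1 := g.iteratedFDeriv_comp_right h0 x (le_refl (j : WithTop ℕ∞))
  have h2 : (fun x => f (v + g x)) = (fun z => f (v + z)) ∘ g := rfl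
  rw [h2, h1]
  refine (ContinuousMultilinearMap.norm_compContinuousLinearMap_le _ _).trans ?_
  rw [iteratedFDeriv_comp_add_left, mul_comm]
  refine mul_le_mul_of_nonneg_right ?_ (norm_nonneg _)
  rw [Finset.prod_const, Finset.card_univ, Fintype.card_fin]
  exact pow_le_pow_left₀ (norm_nonneg _) hg j

namespace Frame

variable {T : Submodule ℝ E} {m n : ℕ} (F : Frame T m n)

/-- derivatives of the coordinates -/
theorem norm_iteratedFDeriv_toC {w : E → E} {j : ℕ} (hw : ContDiff ℝ j w) (z : E) {R : ℝ}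
    (hR : 0 < R) (a : Fin n) (x : REF.E m) :
    R * ‖iteratedFDeriv ℝ j (F.toC z R w a) x‖ ≤
      R ^ j * ‖iteratedFDeriv ℝ j w (z + R • F.i x)‖ := by
  set g : REF.E m →L[ℝ] E := R • F.i.toContinuousLinearMap with hg
  have hgn : ‖g‖ ≤ R := by
    rw [hg, norm_smul, Real.norm_eq_abs, abs_of_pos hR]
    calc R * ‖F.i.toContinuousLinearMap‖ ≤ R * 1 := by
          gcongr; exact F.opNorm_i_le
      _ = R := mul_one R
  set L : E →L[ℝ] ℝ := R⁻¹ • innerSL ℝ (F.f a) with hL
  have hLn : ‖L‖ ≤ R⁻¹ := by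
    rw [hL, norm_smul, innerSL_apply_norm, F.norm_f, mul_one, Real.norm_eq_abs,
      abs_of_pos (inv_pos.2 hR)]
  have h1 : F.toC z R w a = L ∘ fun x => w (z + g x) := by
    funext x
    simp [Frame.toC, hL, hg, div_eq_inv_mul]
  have h2 : ContDiff ℝ j fun x => w (z + g x) := hw.comp (contDiff_const.add g.contDiff)
  have h3 := L.norm_iteratedFDeriv_comp_left (h2.contDiffAt (x := x)) (le_refl (j : WithTop ℕ∞))
  have h4 := norm_iteratedFDeriv_affine hw g hgn z x
  have h5 : z + g x = z + R • F.i x := rfl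
  rw [h5] at h4
  rw [h1]
  calc R * ‖iteratedFDeriv ℝ j (⇑L ∘ fun x => w (z + g x)) x‖
      ≤ R * (R⁻¹ * (R ^ j * ‖iteratedFDeriv ℝ j w (z + R • F.i x)‖)) := by
        gcongr
        exact h3.trans (mul_le_mul hLn h4 (norm_nonneg _) (inv_nonneg.2 hR.le))
    _ = _ := by
        field_simp

/-- derivatives of the function with given coordinates -/
theorem norm_iteratedFDeriv_frC {u : Fin n → REF.E m → ℝ} {j : ℕ} (hu : ∀ a, ContDiff ℝ j (u a))
    (z : E) {R : ℝ} (hR : 0 < R) (y : E) :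
    R ^ j * ‖iteratedFDeriv ℝ j (F.frC z R u) y‖ ≤
      R * ∑ a, ‖iteratedFDeriv ℝ j (u a) (R⁻¹ • F.c (y - z))‖ := by
  set g : E →L[ℝ] REF.E m := R⁻¹ • F.c with hg
  have hgn : ‖g‖ ≤ R⁻¹ := by
    rw [hg, norm_smul, Real.norm_eq_abs, abs_of_pos (inv_pos.2 hR)]
    calc R⁻¹ * ‖F.c‖ ≤ R⁻¹ * 1 := by
          gcongr; exact F.opNorm_c_le
      _ = R⁻¹ := mul_one _
  have h5 : ∀ y, - g z + g y = R⁻¹ • F.c (y - z) := fun y => by
    simp only [hg, ContinuousLinearMap.smul_apply, map_sub, smul_sub]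
    abel
  set L : Fin n → (ℝ →L[ℝ] E) := fun a => ContinuousLinearMap.toSpanSingleton ℝ (R • F.f a)
    with hL
  have hLn : ∀ a, ‖L a‖ ≤ R := fun a => by
    rw [hL]
    simp only
    rw [ContinuousLinearMap.norm_toSpanSingleton, norm_smul, F.norm_f, mul_one, Real.norm_eq_abs,
      abs_of_pos hR]
  have h1 : F.frC z R u = fun y => ∑ a, (L a ∘ fun y => u a (- g z + g y)) y := by
    funext y
    simp only [Frame.frC, hL, h5, Function.comp_apply, ContinuousLinearMap.toSpanSingleton_apply,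
      smul_smul]
    exact Finset.sum_congr rfl fun a _ => by rw [mul_comm]
  have h2 : ∀ a, ContDiff ℝ j fun y => u a (- g z + g y) := fun a =>
    (hu a).comp (contDiff_const.add g.contDiff)
  have h3 : ∀ a, ‖iteratedFDeriv ℝ j (L a ∘ fun y => u a (- g z + g y)) y‖ ≤
      R * ((R⁻¹) ^ j * ‖iteratedFDeriv ℝ j (u a) (R⁻¹ • F.c (y - z))‖) := fun a => by
    have h3 := (L a).norm_iteratedFDeriv_comp_left ((h2 a).contDiffAt (x := y))
      (le_refl (j : WithTop ℕ∞))
    have h4 := norm_iteratedFDeriv_affine (hu a) g hgn (- g z) y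
    rw [h5] at h4
    exact h3.trans (mul_le_mul (hLn a) h4 (norm_nonneg _) hR.le)
  have h6 : iteratedFDeriv ℝ j (fun y => ∑ a, (L a ∘ fun y => u a (- g z + g y)) y) y =
      ∑ a, iteratedFDeriv ℝ j (L a ∘ fun y => u a (- g z + g y)) y :=
    iteratedFDeriv_fun_sum_apply fun a _ => ((L a).contDiff.comp (h2 a)).contDiffAt
  rw [h1, h6]
  calc R ^ j * ‖∑ a, iteratedFDeriv ℝ j (L a ∘ fun y => u a (- g z + g y)) y‖
      ≤ R ^ j * ∑ a, R * ((R⁻¹) ^ j * ‖iteratedFDeriv ℝ j (u a) (R⁻¹ • F.c (y - z))‖) := by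
        gcongr
        exact (norm_sum_le _ _).trans (Finset.sum_le_sum fun a _ => h3 a)
    _ = _ := by
        rw [← Finset.mul_sum, ← Finset.mul_sum]
        have h6 : R ^ j * (R⁻¹) ^ j = 1 := by
          rw [← mul_pow, mul_inv_cancel₀ hR.ne', one_pow]
        calc R ^ j * (R * (R⁻¹ ^ j * ∑ a, ‖iteratedFDeriv ℝ j (u a) (R⁻¹ • F.c (y - z))‖))
            = (R ^ j * R⁻¹ ^ j) * (R * ∑ a, ‖iteratedFDeriv ℝ j (u a) (R⁻¹ • F.c (y - z))‖) := by
              ring
          _ = _ := by rw [h6, one_mul]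

end Frame

end Vale.Agent.P214.COORD
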